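import Vale.Agent.P151.H560.Passage

/-!
# P151 (H560): independent fields and percolation events

The random set `{i ∈ u | t i ∈ A}` for independent `t i` is compared with Bernoulli percolation.
-/

open MeasureTheory ProbabilityTheory unitInterval
open scoped ENNReal

namespace Vale.Agent.P151.H560

open Vale.Agent.P151 Vale.Agent.P151.H648 SimpleGraph

/-- the law of the indicator of an event depends only on the probability of the event -/
theorem map_prop_eq {X Y : Type} [MeasurableSpace X] [MeasurableSpace Y] (μ : Measure X)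
    (μ' : Measure Y) [IsProbabilityMeasure μ] [IsProbabilityMeasure μ'] {S : Set X} {S' : Set Y}
    (hS : MeasurableSet S) (hS' : MeasurableSet S') (h : μ S = μ' S') :
    μ.map (fun x => (x ∈ S : Prop)) = μ'.map (fun y => (y ∈ S' : Prop)) := by
  have m1 : Measurable (fun x => (x ∈ S : Prop)) := by
    apply measurable_to_prop
    have : (fun x => (x ∈ S : Prop)) ⁻¹' {True} = S := by
      ext x
      simp
    rw [this]
    exact hS
  have m2 : Measurable (fun y => (y ∈ S' : Prop)) := by
    apply measurable_to_prop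
    have : (fun y => (y ∈ S' : Prop)) ⁻¹' {True} = S' := by
      ext x
      simp
    rw [this]
    exact hS'
  refine Measure.ext_of_singleton fun a => ?_
  rw [Measure.map_apply m1 (measurableSet_singleton a),
    Measure.map_apply m2 (measurableSet_singleton a)]
  by_cases ha : a
  · have e1 : (fun x => (x ∈ S : Prop)) ⁻¹' {a} = S := by
      ext x
      simp [ha]
    have e2 : (fun y => (y ∈ S' : Prop)) ⁻¹' {a} = S' := by
      ext x
      simp [ha]
    rw [e1, e2, h]
  · have e1 : (fun x => (x ∈ S : Prop)) ⁻¹' {a} = Sᶜ := by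
      ext x
      simp [ha]
    have e2 : (fun y => (y ∈ S' : Prop)) ⁻¹' {a} = S'ᶜ := by
      ext x
      simp [ha]
    rw [e1, e2, prob_compl_eq_one_sub hS, prob_compl_eq_one_sub hS', h]

section Transfer

variable {ι : Type}

theorem measurableSet_and (u : Set ι) {X : Type} [MeasurableSpace X] {A : Set X}
    (hA : MeasurableSet A) (i : ι) : MeasurableSet {r : X | i ∈ u ∧ r ∈ A} := by
  by_cases hi : i ∈ u
  · simp only [hi, true_and]
    exact hA
  · simp only [hi, false_and, Set.ofPred_false]
    exact MeasurableSet.empty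

theorem measurable_mem_prop {X : Type} [MeasurableSpace X] {S : Set X} (hS : MeasurableSet S) :
    Measurable (fun x => (x ∈ S : Prop)) := by
  apply measurable_to_prop
  have : (fun x => (x ∈ S : Prop)) ⁻¹' {True} = S := by
    ext x
    simp
  rw [this]
  exact hS

/-- **Transfer.** -/
theorem ae_transfer (u : Set ι) (ν : ι → Measure ℝ) [∀ i, IsProbabilityMeasure (ν i)]
    {A : Set ℝ} (hA : MeasurableSet A) (q : ι → I) (hq : ∀ i, ν i A = ENNReal.ofReal (q i))
    {P : Set ι → Prop} (hP : MeasurableSet {s : Set ι | P s})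
    (h : ∀ᵐ U ∂(unif ι), P {i | i ∈ u ∧ U i < q i}) :
    ∀ᵐ t ∂(Measure.infinitePi ν), P {i | i ∈ u ∧ t i ∈ A} := by
  have hF : Measurable (fun f : ι → Prop => {i | f i}) := by
    rw [measurable_set_iff]
    intro i
    exact measurable_pi_apply i
  have h1 := Measure.infinitePi_map_pi (μ := ν)
    (f := fun (i : ι) (r : ℝ) => (r ∈ {r : ℝ | i ∈ u ∧ r ∈ A} : Prop))
    (fun i => measurable_mem_prop (measurableSet_and u hA i))
  have h2 := Measure.infinitePi_map_pi (μ := fun _ : ι => (volume : Measure I))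
    (f := fun (i : ι) (t : I) => (t ∈ {t : I | i ∈ u ∧ t ∈ Set.Iio (q i)} : Prop))
    (fun i => measurable_mem_prop (measurableSet_and u measurableSet_Iio i))
  have h3 : (fun i : ι => (ν i).map (fun r : ℝ => (r ∈ {r : ℝ | i ∈ u ∧ r ∈ A} : Prop))) =
      fun i : ι => (volume : Measure I).map
        (fun t : I => (t ∈ {t : I | i ∈ u ∧ t ∈ Set.Iio (q i)} : Prop)) := by
    funext i
    refine map_prop_eq (ν i) volume (measurableSet_and u hA i)
      (measurableSet_and u measurableSet_Iio i) ?_
    by_cases hi : i ∈ u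
    · have e1 : {r : ℝ | i ∈ u ∧ r ∈ A} = A := by
        ext r
        simp [hi]
      have e2 : {t : I | i ∈ u ∧ t ∈ Set.Iio (q i)} = Set.Iio (q i) := by
        ext r
        simp [hi]
      rw [e1, e2, hq i]
      simp
    · have e1 : {r : ℝ | i ∈ u ∧ r ∈ A} = ∅ := by
        ext r
        simp [hi]
      have e2 : {t : I | i ∈ u ∧ t ∈ Set.Iio (q i)} = ∅ := by
        ext r
        simp [hi]
      rw [e1, e2]
      simp
  rw [h3, ← h2] at h1
  have m1 : Measurable (fun (t : ι → ℝ) (i : ι) => (t i ∈ {r : ℝ | i ∈ u ∧ r ∈ A} : Prop)) :=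
    measurable_pi_lambda _ fun i =>
      (measurable_mem_prop (measurableSet_and u hA i)).comp (measurable_pi_apply i)
  have m2 : Measurable (fun (U : ι → I) (i : ι) =>
      (U i ∈ {t : I | i ∈ u ∧ t ∈ Set.Iio (q i)} : Prop)) :=
    measurable_pi_lambda _ fun i =>
      (measurable_mem_prop (measurableSet_and u measurableSet_Iio i)).comp (measurable_pi_apply i)
  have h4 : ∀ᵐ f ∂((Measure.infinitePi (fun _ : ι => (volume : Measure I))).map
      (fun (U : ι → I) (i : ι) => (U i ∈ {t : I | i ∈ u ∧ t ∈ Set.Iio (q i)} : Prop))),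
      P {i | f i} := by
    have hP' : MeasurableSet {f : ι → Prop | P {i | f i}} := hF hP
    rw [ae_map_iff m2.aemeasurable hP']
    exact h
  rw [← h1] at h4
  exact ae_of_ae_map m1.aemeasurable h4

end Transfer

section Measurability

variable {V : Type} [Countable V]

theorem measurable_walk (n : ℕ) : ∀ x y : V,
    MeasurableSet {ω : Set (Sym2 V) | ∃ w : (fromEdgeSet ω).Walk x y, w.length = n} := by
  induction n with
  | zero =>
    intro x y
    by_cases hxy : x = y
    · subst hxy
      have : {ω : Set (Sym2 V) | ∃ w : (fromEdgeSet ω).Walk x x, w.length = 0} = Set.univ := by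
        ext ω
        simp only [Set.mem_ofPred_eq, Set.mem_univ, iff_true]
        exact ⟨Walk.nil, rfl⟩
      rw [this]
      exact MeasurableSet.univ
    · have : {ω : Set (Sym2 V) | ∃ w : (fromEdgeSet ω).Walk x y, w.length = 0} = ∅ := by
        ext ω
        simp only [Set.mem_ofPred_eq, Set.mem_empty_iff_false, iff_false]
        rintro ⟨w, hw⟩
        exact hxy (Walk.eq_of_length_eq_zero hw)
      rw [this]
      exact MeasurableSet.empty
  | succ n ih =>
    intro x y
    have : {ω : Set (Sym2 V) | ∃ w : (fromEdgeSet ω).Walk x y, w.length = n + 1} =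
        ⋃ z : V, {ω : Set (Sym2 V) | s(x, z) ∈ ω ∧ x ≠ z} ∩
          {ω : Set (Sym2 V) | ∃ w : (fromEdgeSet ω).Walk z y, w.length = n} := by
      ext ω
      simp only [Set.mem_ofPred_eq, Set.mem_iUnion, Set.mem_inter_iff]
      constructor
      · rintro ⟨w, hw⟩
        cases w with
        | nil => simp at hw
        | @cons _ z _ h w =>
          rw [fromEdgeSet_adj] at h
          exact ⟨z, h, w, by simpa using hw⟩
      · rintro ⟨z, h, w, hw⟩
        refine ⟨Walk.cons ((fromEdgeSet_adj ω).2 h) w, ?_⟩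
        simp [hw]
    rw [this]
    refine MeasurableSet.iUnion fun z => MeasurableSet.inter ?_ (ih z y)
    by_cases hxz : x = z
    · have e : {ω : Set (Sym2 V) | s(x, z) ∈ ω ∧ x ≠ z} = ∅ := by
        ext ω
        simp [hxz]
      rw [e]
      exact MeasurableSet.empty
    · have e : {ω : Set (Sym2 V) | s(x, z) ∈ ω ∧ x ≠ z} = {ω : Set (Sym2 V) | s(x, z) ∈ ω} := by
        ext ω
        simp [hxz]
      rw [e]
      exact measurableSet_setOfPred.2 (measurable_set_mem _)

theorem measurable_conn (x y : V) : MeasurableSet {ω : Set (Sym2 V) | y ∈ cluster ω x} := by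
  have : {ω : Set (Sym2 V) | y ∈ cluster ω x} =
      ⋃ n : ℕ, {ω : Set (Sym2 V) | ∃ w : (fromEdgeSet ω).Walk x y, w.length = n} := by
    ext ω
    simp only [cluster, Set.mem_ofPred_eq, Set.mem_iUnion]
    constructor
    · rintro ⟨w⟩
      exact ⟨w.length, w, rfl⟩
    · rintro ⟨_, w, _⟩
      exact ⟨w⟩
  rw [this]
  exact MeasurableSet.iUnion fun n => measurable_walk n x y

theorem measurable_inf : MeasurableSet (hasInfiniteCluster V) := by
  have : hasInfiniteCluster V =
      ⋃ x : V, ⋂ F : Finset V, ⋃ y : V, {ω : Set (Sym2 V) | y ∉ F ∧ y ∈ cluster ω x} := by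
    ext ω
    simp only [hasInfiniteCluster, Set.mem_ofPred_eq, Set.mem_iUnion, Set.mem_iInter]
    refine exists_congr fun x => ⟨fun h F => ?_, fun h hfin => ?_⟩
    · obtain ⟨y, hy, hyF⟩ := h.exists_notMem_finset F
      exact ⟨y, hyF, hy⟩
    · obtain ⟨y, hy, hy2⟩ := h hfin.toFinset
      exact hy (hfin.mem_toFinset.2 hy2)
  rw [this]
  refine MeasurableSet.iUnion fun x => MeasurableSet.iInter fun F => MeasurableSet.iUnion
    fun y => ?_
  by_cases hy : y ∈ F
  · have e : {ω : Set (Sym2 V) | y ∉ F ∧ y ∈ cluster ω x} = ∅ := by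
      ext ω
      simp [hy]
    rw [e]
    exact MeasurableSet.empty
  · have e : {ω : Set (Sym2 V) | y ∉ F ∧ y ∈ cluster ω x} = {ω | y ∈ cluster ω x} := by
      ext ω
      simp [hy]
    rw [e]
    exact measurable_conn x y

end Measurability

theorem cluster_mono {V : Type} {ω ω' : Set (Sym2 V)} (h : ω ⊆ ω') (x : V) :
    cluster ω x ⊆ cluster ω' x := fun _ hy => hy.mono (fromEdgeSet_mono h)

theorem inf_mono {V : Type} {ω ω' : Set (Sym2 V)} (h : ω ⊆ ω')
    (hω : ω ∈ hasInfiniteCluster V) : ω' ∈ hasInfiniteCluster V := by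
  obtain ⟨x, hx⟩ := hω
  exact ⟨x, hx.mono (cluster_mono h x)⟩

end Vale.Agent.P151.H560
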