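import Vale.Agent.P151.H560.Law

/-!
# P151 (H560): critical first-passage percolation and one-sided critical exponents
-/

open MeasureTheory ProbabilityTheory unitInterval
open scoped ENNReal

namespace Vale.Agent.P151.H560

open Vale.Agent.P151 Vale.Agent.P151.H648 SimpleGraph

section Lattice

theorem lattice_edgeSet (d : ℕ) :
    {e : Sym2 (Fin d → ℤ) | ∃ x y, e = s(x, y) ∧ ∑ i, |x i - y i| = 1} = (lattice d).edgeSet := by
  ext e
  induction e using Sym2.ind with
  | _ a b =>
    simp only [Set.mem_ofPred_eq, mem_edgeSet]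
    constructor
    · rintro ⟨x, y, h, hxy⟩
      have hxy' : (lattice d).Adj x y := hxy
      rw [Sym2.eq_iff] at h
      rcases h with ⟨rfl, rfl⟩ | ⟨rfl, rfl⟩
      · exact hxy'
      · exact hxy'.symm
    · intro h
      exact ⟨a, b, rfl, h⟩

/-- the lattice has a planar projection -/
theorem lattice_planar {d : ℕ} (hd : 2 ≤ d) : HasPlanarProjection (lattice d) := by
  classical
  set i0 : Fin d := ⟨0, by omega⟩ with hi0
  set i1 : Fin d := ⟨1, by omega⟩ with hi1
  have h01 : i0 ≠ i1 := by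
    intro h
    have := congrArg Fin.val h
    simp [hi0, hi1] at this
  -- the translations
  set T : (Fin d → ℤ) → (lattice d ≃g lattice d) := fun v =>
    { toEquiv := Equiv.addRight v
      map_rel_iff' := by
        intro x y
        simp [lattice] } with hT
  have hTa : ∀ v x, T v x = x + v := fun v x => rfl
  let Γ : Subgroup (lattice d ≃g lattice d) :=
    { carrier := {φ | ∃ v : Fin d → ℤ, ∀ x, φ x = x + v}
      mul_mem' := by
        rintro φ ψ ⟨v, hv⟩ ⟨w, hw⟩
        refine ⟨w + v, fun x => ?_⟩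
        change φ (ψ x) = _
        rw [hw, hv, add_assoc]
      one_mem' := ⟨0, fun x => by
        change x = x + 0
        rw [add_zero]⟩
      inv_mem' := by
        rintro φ ⟨v, hv⟩
        refine ⟨-v, fun x => ?_⟩
        change φ.symm x = _
        rw [RelIso.symm_apply_eq, hv]
        simp }
  have hmem : ∀ v, T v ∈ Γ := fun v => ⟨v, fun x => rfl⟩
  refine ⟨Γ, fun x => ((x i0 : ℝ), (x i1 : ℝ)), ⟨{0}, fun x => ⟨0, by simp, T x, hmem x, ?_⟩⟩,
    ?_, T (Pi.single i0 1), hmem _, T (Pi.single i1 1), hmem _, 0, ?_⟩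
  · rw [hTa, zero_add]
  · rintro φ ⟨v, hv⟩
    refine ⟨((v i0 : ℝ), (v i1 : ℝ)), fun x => ?_⟩
    rw [hv]
    simp
  · rw [LinearIndependent.pair_iff]
    intro s t h
    rw [hTa, hTa] at h
    have h1 := congrArg Prod.fst h
    have h2 := congrArg Prod.snd h
    simp [h01, h01.symm] at h1 h2
    exact ⟨h1, h2⟩

end Lattice

section FPP

variable {V : Type} {G : SimpleGraph V}

theorem pc_nonneg' : 0 ≤ pc G := Real.sInf_nonneg fun _ hp => hp.1.1

theorem pt_congr {t t' : Sym2 V → ℝ} (h : ∀ e ∈ G.edgeSet, t e = t' e) {x y : V}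
    (w : G.Walk x y) : pt t w = pt t' w := by
  unfold pt
  congr 1
  exact List.map_congr_left fun e he => h e (w.edges_subset_edgeSet he)

/-- the probability of an event as a point of the unit interval -/
noncomputable def toI (μ : Measure ℝ) [IsProbabilityMeasure μ] (A : Set ℝ) : I :=
  ⟨μ.real A, measureReal_nonneg, measureReal_le_one⟩

theorem ofReal_toI (μ : Measure ℝ) [IsProbabilityMeasure μ] (A : Set ℝ) :
    μ A = ENNReal.ofReal (toI μ A) :=
  (ENNReal.ofReal_toReal (measure_ne_top μ A)).symm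

/-- **Critical first-passage percolation.** -/
theorem fpp [G.LocallyFinite] (hG : G.Connected) (hpc1 : pc G < 1)
    (hpc : ∀ p : unitInterval, (p : ℝ) ≤ pc G →
      setBernoulli G.edgeSet p (hasInfiniteCluster V) = 0)
    (ν : Sym2 V → Measure ℝ) [∀ e, IsProbabilityMeasure (ν e)] {a : ℝ} (ha : 0 < a)
    (h0 : ∀ e ∈ G.edgeSet, ν e (Set.Iio 0) = 0)
    (h1 : ∀ e ∈ G.edgeSet, ν e (Set.Iio a) ≤ ENNReal.ofReal (pc G)) :
    ∀ᵐ t ∂(Measure.infinitePi ν),
      (∀ (x : V) (r : ℝ), {y | ∃ w : G.Walk x y, (w.edges.map t).sum ≤ r}.Finite) ∧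
      ∀ x y : V, ∃ w : G.Walk x y, ∀ w' : G.Walk x y,
        (w.edges.map t).sum ≤ (w'.edges.map t).sum := by
  classical
  have hV : Countable V := countable_of_connected G hG
  have hS : Countable (Sym2 V) := inferInstance
  set pI : I := ⟨pc G, pc_nonneg', hpc1.le⟩ with hpI
  -- the times of the edges are nonnegative
  have hnn : ∀ᵐ t ∂(Measure.infinitePi ν), ∀ e ∈ G.edgeSet, 0 ≤ t e := by
    rw [ae_all_iff]
    intro e
    by_cases he : e ∈ G.edgeSet
    · have h2 : ∀ᵐ r ∂(ν e), 0 ≤ r := by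
        rw [ae_iff]
        have : {r : ℝ | ¬ 0 ≤ r} = Set.Iio 0 := by
          ext r
          simp
        rw [this]
        exact h0 e he
      have h3 := (measurePreserving_eval_infinitePi ν e).quasiMeasurePreserving.ae h2
      filter_upwards [h3] with t ht _
      exact ht
    · exact Filter.Eventually.of_forall fun t h => absurd h he
  -- the fast edges do not percolate
  have hcl : ∀ᵐ t ∂(Measure.infinitePi ν),
      {e | e ∈ G.edgeSet ∧ t e ∈ Set.Iio a} ∉ hasInfiniteCluster V := by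
    refine ae_transfer (P := fun s => s ∉ hasInfiniteCluster V) G.edgeSet ν measurableSet_Iio
      (fun e => toI (ν e) (Set.Iio a)) (fun e => ofReal_toI _ _) measurable_inf.compl ?_
    have h2 : ∀ᵐ ω ∂(setBernoulli G.edgeSet pI), ω ∉ hasInfiniteCluster V :=
      measure_eq_zero_iff_ae_notMem.1 (hpc pI le_rfl)
    filter_upwards [ae_openAt G.edgeSet pI h2] with U hU hinf
    refine hU (inf_mono ?_ hinf)
    rintro e ⟨he, hUe⟩
    refine ⟨he, hUe.trans_le ?_⟩
    change (ν e).real (Set.Iio a) ≤ pc G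
    rw [measureReal_def]
    exact ENNReal.toReal_le_of_le_ofReal pc_nonneg' (h1 e he)
  filter_upwards [hnn, hcl] with t ht hinf
  set ω : Set (Sym2 V) := {e | e ∈ G.edgeSet ∧ t e ∈ Set.Iio a} with hω
  have hfin : ∀ x, (cluster ω x).Finite := by
    intro x
    by_contra h
    exact hinf ⟨x, h⟩
  set t' : Sym2 V → ℝ := fun e => if e ∈ G.edgeSet then t e else a with ht'
  have hc : ∀ e ∈ G.edgeSet, t e = t' e := fun e he => by
    simp [ht', he]
  have hpt : ∀ {x y : V} (w : G.Walk x y), (w.edges.map t).sum = pt t' w := fun w =>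
    pt_congr hc w
  have h0' : ∀ e, 0 ≤ t' e := by
    intro e
    by_cases he : e ∈ G.edgeSet
    · rw [← hc e he]
      exact ht e he
    · simp [ht', he, ha.le]
  have ha' : ∀ e, e ∉ ω → a ≤ t' e := by
    intro e heω
    by_cases he : e ∈ G.edgeSet
    · rw [← hc e he]
      by_contra h
      exact heω ⟨he, not_le.1 h⟩
    · simp [ht', he]
  have hb : ∀ (x : V) (r : ℝ), {y | ∃ w : G.Walk x y, pt t' w ≤ r}.Finite :=
    fun x r => finite_ball G hfin ha h0' ha' x r
  constructor
  · intro x r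
    simp only [hpt]
    exact hb x r
  · intro x y
    simp only [hpt]
    exact exists_geodesic hG h0' hb x y

/-- **Supercritical first-passage percolation.** -/
theorem fpp_super [Infinite V] [G.LocallyFinite] (hG : G.Connected) (hpc1 : pc G < 1)
    (ν : Sym2 V → Measure ℝ) [∀ e, IsProbabilityMeasure (ν e)] {q : ℝ} (hq : pc G < q)
    (h1 : ∀ e ∈ G.edgeSet, ENNReal.ofReal q ≤ ν e {0}) :
    ∀ᵐ t ∂(Measure.infinitePi ν), ∃ x : V,
      {y | ∃ w : G.Walk x y, (w.edges.map t).sum = 0}.Infinite := by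
  classical
  have hV : Countable V := countable_of_connected G hG
  have hq0 : pc G < min q 1 := lt_min hq hpc1
  set qI : I := ⟨min q 1, pc_nonneg'.trans hq0.le, min_le_right _ _⟩ with hqI
  obtain ⟨o⟩ := hG.nonempty
  have hcl : ∀ᵐ t ∂(Measure.infinitePi ν),
      {e | e ∈ G.edgeSet ∧ t e ∈ ({0} : Set ℝ)} ∈ hasInfiniteCluster V := by
    refine ae_transfer (P := fun s => s ∈ hasInfiniteCluster V) G.edgeSet ν
      (measurableSet_singleton 0) (fun e => toI (ν e) {0}) (fun e => ofReal_toI _ _)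
      measurable_inf ?_
    have h2 : ∀ᵐ ω ∂(setBernoulli G.edgeSet qI), ω ∈ hasInfiniteCluster V :=
      ae_perc hG o (theta_pos hG o hq0)
    filter_upwards [ae_openAt G.edgeSet qI h2] with U hU
    refine inf_mono ?_ hU
    rintro e ⟨he, hUe⟩
    refine ⟨he, hUe.trans_le ?_⟩
    change min q 1 ≤ (ν e).real {0}
    refine (min_le_left _ _).trans ?_
    rw [measureReal_def]
    exact (ENNReal.ofReal_le_iff_le_toReal (measure_ne_top _ _)).1 (h1 e he)
  filter_upwards [hcl] with t ht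
  obtain ⟨x, hx⟩ := ht
  refine ⟨x, hx.mono ?_⟩
  rintro y ⟨w⟩
  have hle : fromEdgeSet {e | e ∈ G.edgeSet ∧ t e ∈ ({0} : Set ℝ)} ≤ G := by
    intro u v h
    exact (fromEdgeSet_adj _).1 h |>.1.1
  refine ⟨w.mapLe hle, ?_⟩
  rw [Walk.edges_mapLe_eq_edges]
  refine List.sum_eq_zero ?_
  intro r hr
  obtain ⟨e, he, rfl⟩ := List.mem_map.1 hr
  have h3 := w.edges_subset_edgeSet he
  rw [edgeSet_fromEdgeSet] at h3
  exact h3.1.2

end FPP

section Exponents

variable {V : Type} {G : SimpleGraph V}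

theorem markov [DecidableEq V] [G.LocallyFinite] (hG : G.Connected) (p : unitInterval) (n : ℕ)
    (x : V) : ENNReal.ofReal (n * phiB G n x p) ≤ meanSize G x p := by
  unfold meanSize
  have e1 : ENNReal.ofReal (n * phiB G n x p) =
      ∫⁻ ω, (bigC n x).indicator (fun _ => (n : ℝ≥0∞)) ω ∂(setBernoulli G.edgeSet p) := by
    rw [lintegral_indicator_const₀ (nullMeasurableSet_bigC G hG p n x),
      ← measureReal_bigC G hG, ENNReal.ofReal_mul (Nat.cast_nonneg _), ENNReal.ofReal_natCast,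
      measureReal_def, ENNReal.ofReal_toReal (measure_ne_top _ _)]
  rw [e1]
  refine lintegral_mono fun ω => ?_
  by_cases h : ω ∈ bigC n x
  · rw [Set.indicator_of_mem h]
    have h2 : (n : ℕ∞) ≤ (cluster ω x).encard := h
    have h3 := ENat.toENNReal_le.2 h2
    rw [ENat.toENNReal_coe] at h3
    exact h3
  · rw [Set.indicator_of_notMem h]
    exact bot_le

theorem mean_top [DecidableEq V] [G.LocallyFinite] (hG : G.Connected) (p : unitInterval) (x : V)
    {c : ℝ} (hc : 0 < c) (h : ∀ n : ℕ, 1 ≤ n → c * (n : ℝ) ^ (-(1 / 2) - 1 / 4 : ℝ) ≤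
      phiB G n x p) : meanSize G x p = ⊤ := by
  by_contra hne
  have h1 : ∀ n : ℕ, 1 ≤ n → c * (n : ℝ) ^ (1 / 4 : ℝ) ≤ (meanSize G x p).toReal := by
    intro n hn
    have hn0 : (0 : ℝ) < n := by exact_mod_cast hn
    have h2 := markov hG p n x
    have h3 : c * (n : ℝ) ^ (1 / 4 : ℝ) ≤ n * phiB G n x p := by
      refine le_trans (le_of_eq ?_) (mul_le_mul_of_nonneg_left (h n hn) hn0.le)
      have e1 : (n : ℝ) ^ (1 / 4 : ℝ) = n * (n : ℝ) ^ (-(1 / 2) - 1 / 4 : ℝ) := by
        have h4 := Real.rpow_add hn0 1 (-(1 / 2) - 1 / 4 : ℝ)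
        rw [Real.rpow_one] at h4
        rw [← h4]
        norm_num
      rw [e1]
      ring
    exact (ENNReal.ofReal_le_iff_le_toReal hne).1
      ((ENNReal.ofReal_le_ofReal h3).trans h2)
  have h2 : Filter.Tendsto (fun n : ℕ => c * (n : ℝ) ^ (1 / 4 : ℝ)) Filter.atTop
      Filter.atTop := by
    refine Filter.Tendsto.const_mul_atTop hc ?_
    exact (tendsto_rpow_atTop (by norm_num)).comp tendsto_natCast_atTop_atTop
  obtain ⟨n, hn1, hn⟩ := ((Filter.eventually_ge_atTop 1).and
    (h2.eventually_gt_atTop (meanSize G x p).toReal)).exists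
  exact absurd (h1 n hn1) (not_le.2 hn)

/-- **One-sided critical exponents.** -/
theorem crit [Infinite V] [G.LocallyFinite] (hG : G.Connected) (hpc1 : pc G < 1)
    (hqt : IsQuasiTransitive G) : 0 < pc G ∧ ∀ x : V,
      (∀ p : unitInterval, meanSize G x p < ⊤ ↔ (p : ℝ) < pc G) ∧
      ∀ ε : ℝ, 0 < ε → ε < 1 → ∃ c : ℝ, 0 < c ∧
        (∀ p : unitInterval, (p : ℝ) = pc G → ∀ n : ℕ, 1 ≤ n →
          c * (n : ℝ) ^ (-(1 / 2) - ε) ≤ tail G x n p) ∧
        ∀ p : unitInterval, (p : ℝ) < pc G →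
          ENNReal.ofReal (c * (pc G - (p : ℝ)) ^ (-1 + ε)) ≤ meanSize G x p := by
  classical
  obtain ⟨hpc0, hmf⟩ := high hG hqt
  refine ⟨hpc0, fun x => ?_⟩
  obtain ⟨c1, hc1, h1⟩ := hmf x
  obtain ⟨d, _, hd⟩ := Vale.Agent.P165.LF.exists_degree_bound (G := G) hqt
  have htail : ∀ ε : ℝ, 0 < ε → ∃ c' : ℝ, 0 < c' ∧ ∀ n : ℕ, 1 ≤ n →
      c' * (n : ℝ) ^ (-(1 / 2) - ε) ≤ phiB G n x (pc G) := fun ε hε =>
    tail_lower hG hd hpc0 hpc1 hc1 h1 hε
  constructor
  · intro p
    constructor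
    · intro hlt
      by_contra hp
      push Not at hp
      rcases hp.eq_or_lt with hp | hp
      · obtain ⟨c', hc', h2⟩ := htail (1 / 4) (by norm_num)
        refine hlt.ne (mean_top hG p x hc' fun n hn => ?_)
        rw [← hp]
        exact h2 n hn
      · have hθ : 0 < theta G x p := theta_pos hG x hp
        refine hlt.ne (mean_top hG p x hθ fun n hn => ?_)
        have h3 := theta_le_phiB hG n x p
        have h4 : (n : ℝ) ^ (-(1 / 2) - 1 / 4 : ℝ) ≤ 1 :=
          Real.rpow_le_one_of_one_le_of_nonpos (by exact_mod_cast hn) (by norm_num)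
        exact (mul_le_of_le_one_right hθ.le h4).trans h3
    · intro hp
      have he : Vale.Agent.P165.pc G = pc G := NA.pc_eq G
      have hs : Vale.Agent.P165.LF.Sub G (p : ℝ) :=
        Vale.Agent.P165.LF.sub_of_lt_pc hG hqt p.2.1 (he ▸ hp) p.2.2
      exact (mean_le_chi hG p hs x).trans_lt ENNReal.ofReal_lt_top
  · intro ε hε hε1
    obtain ⟨c2, hc2, h2⟩ := htail ε hε
    obtain ⟨c3, hc3, h3⟩ := mean_lower hG hd hpc0 hpc1 htail hε hε1
    have hm : 0 < min c2 c3 := lt_min hc2 hc3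
    refine ⟨min c2 c3, hm, fun p hp n hn => ?_, fun p hp => ?_⟩
    · have h4 := h2 n hn
      have h5 : tail G x n p = phiB G n x p := measureReal_bigC G hG p n x
      rw [h5, hp]
      exact le_trans (mul_le_mul_of_nonneg_right (min_le_left _ _)
        (Real.rpow_nonneg (Nat.cast_nonneg _) _)) h4
    · have h4 := h3 p hp
      rw [show (-1 + ε) = -(1 - ε) by ring]
      exact le_trans (ENNReal.ofReal_le_ofReal (mul_le_mul_of_nonneg_right (min_le_right _ _)
        (Real.rpow_nonneg (by linarith) _))) h4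

end Exponents

end Vale.Agent.P151.H560
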