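import Vale.Agent.P151.H648.Main
import Mathlib.Data.Set.Finite.List

/-!
# P151 (H560): critical first-passage percolation

If all open clusters are finite and the closed edges have passage times at least `a > 0`, then the
balls of the passage time metric are finite and geodesics exist.
-/

open MeasureTheory ProbabilityTheory

namespace Vale.Agent.P151.H560

open Vale.Agent.P151 SimpleGraph

variable {V : Type}

/-- the passage time of a walk -/
def pt {G : SimpleGraph V} (t : Sym2 V → ℝ) {x y : V} (w : G.Walk x y) : ℝ := (w.edges.map t).sum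

theorem pt_nil {G : SimpleGraph V} (t : Sym2 V → ℝ) (x : V) : pt t (Walk.nil : G.Walk x x) = 0 := by
  simp [pt]

theorem pt_cons {G : SimpleGraph V} (t : Sym2 V → ℝ) {x y z : V} (h : G.Adj x y)
    (w : G.Walk y z) : pt t (Walk.cons h w) = t s(x, y) + pt t w := by
  simp [pt]

theorem pt_append {G : SimpleGraph V} (t : Sym2 V → ℝ) {x y z : V} (w : G.Walk x y)
    (w' : G.Walk y z) : pt t (w.append w') = pt t w + pt t w' := by
  simp [pt]

theorem pt_nonneg {G : SimpleGraph V} {t : Sym2 V → ℝ} (ht : ∀ e, 0 ≤ t e) {x y : V}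
    (w : G.Walk x y) : 0 ≤ pt t w := by
  induction w with
  | nil => rw [pt_nil]
  | cons h w ih =>
    rw [pt_cons]
    exact add_nonneg (ht _) ih

/-- **Balls are finite.** -/
theorem finite_ball_aux (G : SimpleGraph V) [G.LocallyFinite] {ω : Set (Sym2 V)}
    (hω : ∀ x, (cluster ω x).Finite) {t : Sym2 V → ℝ} {a : ℝ} (_ : 0 < a)
    (ht : ∀ e, 0 ≤ t e) (hta : ∀ e, e ∉ ω → a ≤ t e) (k : ℕ) :
    ∀ x, {y | ∃ w : G.Walk x y, pt t w < k * a}.Finite := by
  classical
  induction k with
  | zero =>
    intro x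
    convert Set.finite_empty using 1
    ext y
    simp only [Nat.cast_zero, zero_mul, Set.mem_empty_iff_false, iff_false]
    rintro ⟨w, hw⟩
    exact absurd (pt_nonneg ht w) (not_le.2 hw)
  | succ k ih =>
    have key : ∀ {x y : V} (w : G.Walk x y), pt t w < (k + 1) * a →
        y ∈ cluster ω x ∪ ⋃ u ∈ cluster ω x, ⋃ v ∈ G.neighborSet u,
          {y | ∃ w : G.Walk v y, pt t w < k * a} := by
      intro x y w
      induction w with
      | nil =>
        intro _
        exact Or.inl (Reachable.refl _)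
      | @cons x x' y h w' ihw =>
        intro hw
        rw [pt_cons] at hw
        by_cases he : s(x, x') ∈ ω
        · have h1 : (SimpleGraph.fromEdgeSet ω).Reachable x x' := by
            refine SimpleGraph.Adj.reachable ?_
            rw [SimpleGraph.fromEdgeSet_adj]
            exact ⟨he, h.ne⟩
          have h2 := ihw (by have := ht s(x, x'); linarith)
          rcases h2 with h2 | h2
          · left
            exact h1.trans h2
          · right
            obtain ⟨u, hu, h3⟩ := Set.mem_iUnion₂.1 h2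
            exact Set.mem_iUnion₂.2 ⟨u, h1.trans hu, h3⟩
        · right
          refine Set.mem_iUnion₂.2 ⟨x, Reachable.refl _, Set.mem_iUnion₂.2 ⟨x', h, w', ?_⟩⟩
          have := hta _ he
          linarith
    intro x
    have hsub : {y | ∃ w : G.Walk x y, pt t w < ((k + 1 : ℕ) : ℝ) * a} ⊆
        cluster ω x ∪ ⋃ u ∈ cluster ω x, ⋃ v ∈ G.neighborSet u,
          {y | ∃ w : G.Walk v y, pt t w < k * a} := by
      rintro y ⟨w, hw⟩
      refine key w ?_
      push_cast at hw
      exact hw
    refine Set.Finite.subset ?_ hsub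
    refine (hω x).union ((hω x).biUnion fun u _ => ?_)
    exact Set.Finite.biUnion (Set.toFinite _) fun v _ => ih v

theorem finite_ball (G : SimpleGraph V) [G.LocallyFinite] {ω : Set (Sym2 V)}
    (hω : ∀ x, (cluster ω x).Finite) {t : Sym2 V → ℝ} {a : ℝ} (ha : 0 < a)
    (ht : ∀ e, 0 ≤ t e) (hta : ∀ e, e ∉ ω → a ≤ t e) (x : V) (r : ℝ) :
    {y | ∃ w : G.Walk x y, pt t w ≤ r}.Finite := by
  obtain ⟨k, hk⟩ := exists_nat_gt (r / a)
  rw [div_lt_iff₀ ha] at hk
  refine (finite_ball_aux G hω ha ht hta k x).subset ?_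
  rintro y ⟨w, hw⟩
  exact ⟨w, hw.trans_lt hk⟩

theorem pt_dropUntil [DecidableEq V] {G : SimpleGraph V} {t : Sym2 V → ℝ} (ht : ∀ e, 0 ≤ t e)
    {x y u : V} (w : G.Walk x y) (hu : u ∈ w.support) : pt t (w.dropUntil u hu) ≤ pt t w := by
  have h1 := congrArg (pt t) (w.take_spec hu)
  rw [pt_append] at h1
  have := pt_nonneg ht (w.takeUntil u hu)
  linarith

theorem pt_takeUntil [DecidableEq V] {G : SimpleGraph V} {t : Sym2 V → ℝ} (ht : ∀ e, 0 ≤ t e)
    {x y u : V} (w : G.Walk x y) (hu : u ∈ w.support) : pt t (w.takeUntil u hu) ≤ pt t w := by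
  have h1 := congrArg (pt t) (w.take_spec hu)
  rw [pt_append] at h1
  have := pt_nonneg ht (w.dropUntil u hu)
  linarith

theorem pt_bypass [DecidableEq V] {G : SimpleGraph V} {t : Sym2 V → ℝ} (ht : ∀ e, 0 ≤ t e)
    {x y : V} (w : G.Walk x y) : pt t w.bypass ≤ pt t w := by
  induction w with
  | nil => exact le_rfl
  | @cons x x' y h w ih =>
    rw [pt_cons, Walk.bypass]
    split_ifs with hs
    · refine (pt_dropUntil ht _ _).trans (ih.trans ?_)
      have := ht s(x, x')
      linarith
    · rw [pt_cons]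
      linarith

/-- **Geodesics exist.** -/
theorem exists_geodesic {G : SimpleGraph V} (hG : G.Connected) {t : Sym2 V → ℝ}
    (ht : ∀ e, 0 ≤ t e) (hfin : ∀ x r, {y | ∃ w : G.Walk x y, pt t w ≤ r}.Finite) (x y : V) :
    ∃ w : G.Walk x y, ∀ w' : G.Walk x y, pt t w ≤ pt t w' := by
  classical
  obtain ⟨w0⟩ := hG.preconnected x y
  set r := pt t w0 with hr
  set B := {z | ∃ w : G.Walk x z, pt t w ≤ r} with hB
  have hBf : B.Finite := hfin x r
  -- the paths inside `B`
  set P : Set (G.Walk x y) := {w | w.IsPath ∧ ∀ z ∈ w.support, z ∈ B} with hP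
  have hPf : P.Finite := by
    have h1 : {l : List V | l.Nodup ∧ ∀ z ∈ l, z ∈ B}.Finite := by
      have h2 : {l : List V | l.length ≤ hBf.toFinset.card ∧ ∀ z ∈ l, z ∈ B}.Finite := by
        have _ : Finite B := hBf
        have h3 := List.finite_length_le (B : Set V) hBf.toFinset.card
        refine (h3.image (fun l : List B => l.map Subtype.val)).subset ?_
        rintro l ⟨hl1, hl2⟩
        refine ⟨l.attach.map fun z => ⟨z.1, hl2 z.1 z.2⟩, ?_, ?_⟩
        · simpa using hl1
        · simp
      refine h2.subset ?_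
      rintro l ⟨hl1, hl2⟩
      refine ⟨?_, hl2⟩
      rw [← List.toFinset_card_of_nodup hl1]
      refine Finset.card_le_card fun z hz => ?_
      rw [Set.Finite.mem_toFinset]
      exact hl2 z (List.mem_toFinset.1 hz)
    refine Set.Finite.of_finite_image (f := fun w : G.Walk x y => w.support) (h1.subset ?_) ?_
    · rintro _ ⟨w, hw, rfl⟩
      exact ⟨hw.1.support_nodup, hw.2⟩
    · intro w _ w' _ h
      exact Walk.ext_support h
  have hmem : ∀ w : G.Walk x y, pt t w ≤ r → w.bypass ∈ P := by
    intro w hw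
    refine ⟨w.bypass_isPath, fun z hz => ⟨w.bypass.takeUntil z hz, ?_⟩⟩
    exact (pt_takeUntil ht _ hz).trans ((pt_bypass ht w).trans hw)
  have hne : P.Nonempty := ⟨w0.bypass, hmem w0 le_rfl⟩
  obtain ⟨w1, _, hmin⟩ := Set.exists_min_image P (fun w => pt t w) hPf hne
  refine ⟨w1, fun w' => ?_⟩
  by_cases hw' : pt t w' ≤ r
  · exact (hmin _ (hmem w' hw')).trans (pt_bypass ht w')
  · push Not at hw'
    exact ((hmin _ (hmem w0 le_rfl)).trans (pt_bypass ht w0)).trans hw'.le

end Vale.Agent.P151.H560
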